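import Crest.Agent.X212.Lk34.Nck

/-! # Row 212, LIX-KER: the weighted integrability of the radial profile -/

set_option autoImplicit false
set_option linter.unusedSectionVars false
noncomputable section
open Set Function Filter Topology MeasureTheory
open scoped ContDiff Manifold

namespace Crest.Agent.X212.Ker75
open An Nd18 Sob92 Wz78 Lns95 Lix26 Lk34
open M (Mf)

variable {Y : Mf 3} [CompactSpace Y.M] {κ : Type} [Fintype κ] {lam : Type} [Fintype lam]
  [DecidableEq lam] {E : Type} [NormedAddCommGroup E] [NormedSpace ℝ E] [FiniteDimensional ℝ E]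
  [MeasurableSpace E] [BorelSpace E]
  {HM : Type} [TopologicalSpace HM] {I : ModelWithCorners ℝ E HM} [I.Boundaryless]
  {M : Type} [TopologicalSpace M] [ChartedSpace HM M] [IsManifold I ∞ M] [T2Space M]
  [MeasurableSpace M] [BorelSpace M] [SecondCountableTopology M]
  {D : YD Y.I Y.M κ (lam ⊕ lam)} {B : Base M (Option κ) (lam ⊕ lam)}
  {G : Geo I M (Option κ) (lam ⊕ lam)} {K : Nk D B G} {Ω : Set M} {d : Mdl K Ω}

theorem hi (ok : d.OK) {g Q Φ : ℝ → ℝ} (r : Rf d.P d.h (xx d.Ds '' Ω) g Q Φ) (hp : K.p = some 0)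
    (hq : K.q = none) {δ : ℝ} (d0 : 0 < δ) (d2 : δ < 2) {ψ : M → ℝ} (hψ : ∀ x ∈ Ω, ψ x = δ * K.τ x)
    (a : ℝ) : IntegrableOn (fun y => Real.exp (2 * ψ y) * (a * Real.exp (-Φ (xx d.Ds y)) ^ 2)) Ω G.F.μ := by
  obtain ⟨C, hC⟩ := decay ok r
  have e := en ok
  refine (e.one.int (f := fun y => Real.exp (2 * (δ * K.τ y)) * (a * Real.exp (-Φ (xx d.Ds y)) ^ 2))
    (δ := 4 - 2 * δ) (C := |a| * C ^ 2) (fun y hy => ?_) (by linarith) fun y hy => ?_).congr_fun
    (fun y hy => by simp only [hψ y hy]) e.one.op.measurableSet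
  · obtain ⟨b, hb⟩ := (d.Ds.cov y).1 hy
    have c1 := K.sm_τ.continuous.continuousAt (x := y)
    have c2 := ((r.sΦ _ ⟨y, hy, rfl⟩).continuousAt.comp (f := xx d.Ds) (sa_xx hb).continuousAt)
    exact (((c1.const_mul δ).const_mul 2).rexp.mul ((c2.neg.rexp.pow 2).const_mul a)).continuousWithinAt
  · rw [one_mul] at hy ⊢
    have h1 : K.τ y ≤ K.tm y := by
      simp only [Nk.τ, tf, hp, hq, Option.elim_some, Option.elim_none, sub_zero, add_zero, fl]
      nlinarith [Real.smoothTransition.le_one (2 * K.tm y - 1)]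
    have h2 := pow_le_pow_left₀ (Real.exp_pos _).le (hC y hy).2 2
    rw [norm_mul, norm_mul, Real.norm_of_nonneg (Real.exp_pos _).le, Real.norm_eq_abs a,
      Real.norm_of_nonneg (sq_nonneg _), show -(4 - 2 * δ) * K.tm y =
        2 * (δ * K.tm y) + (-2 * K.tm y + -2 * K.tm y) by ring, Real.exp_add, Real.exp_add]
    refine (mul_le_mul (Real.exp_le_exp.2 (by nlinarith : _ ≤ 2 * (δ * K.tm y)))
      (mul_le_mul_of_nonneg_left h2 (abs_nonneg a)) (by positivity) (Real.exp_pos _).le).trans_eq (by ring)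

end Crest.Agent.X212.Ker75
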