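import Crest.Agent.X212.Lk34.Eta
import Crest.Agent.X212.Wz78.Boch
import Crest.Agent.X212.Nk89.Wt

/-! # Row 212, LIX-KER: from complex one-forms to kernel elements of the deformation operator -/

set_option autoImplicit false
set_option linter.unusedSectionVars false
noncomputable section
open Set Function Filter Topology MeasureTheory
open scoped ContDiff Manifold InnerProductSpace

namespace Crest.Agent.X212.Ker75
open Sob92 Wz78 Map77 Nk89 Lk34
open An hiding cm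
open Lns95 (dv_re dv_im)
open Line51 (fsm_re fsm_im)

variable {E : Type} [NormedAddCommGroup E] [NormedSpace ℝ E] [FiniteDimensional ℝ E]
  [MeasurableSpace E] [BorelSpace E]
  {HM : Type} [TopologicalSpace HM] {I : ModelWithCorners ℝ E HM} [I.Boundaryless]
  {M : Type} [TopologicalSpace M] [ChartedSpace HM M] [IsManifold I ∞ M]
  [MeasurableSpace M] [T2Space M] [BorelSpace M] [SecondCountableTopology M]
  {ι lam : Type} [Fintype ι] [Fintype lam] {β : Type}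

/-- the covariant derivative of a complex one-form with the potential `α` -/
def cθ (F : Fr I M ι) (Γ : ι → ι → ι → M → ℝ) (α : ι → M → ℝ) (θ : ι → M → ℂ) (a k : ι) (y : M) : ℂ :=
  dv I (F.e a) (θ k) y - ∑ j, Γ a k j y • θ j y + (α a y : ℝ) * (Complex.I * θ k y)

section
variable {V : Type} [NormedAddCommGroup V] [InnerProductSpace ℝ V] [CompleteSpace V]

/-- `cm` as a linear map -/
def cL (J : V →L[ℝ] V) (v : V) : ℂ →L[ℝ] V :=
  Complex.reCLM.smulRight v + Complex.imCLM.smulRight (J v)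

theorem cm_eq (J : V →L[ℝ] V) (z : ℂ) (v : V) : cm J z v = cL J v z := rfl

variable {F : Fr I M ι} {Ω : Set M} {A : ι → M → V →L[ℝ] V} {Q J : M → V →L[ℝ] V}
  {O : β → Set M} {α : β → ι → M → ℝ} {g : β → β → M → ℂ} {y : M} {a : ι → M → ℝ} {η : M → V}
  {θ : ι → M → ℂ} (T : Tc F Ω A Q J O α g) (hy : y ∈ Ω) (p : Pl F A Q J a η y)
include T hy p

theorem sa_cm {f : M → ℂ} (s : SA I f y) : SA I (fun z => cm (J z) (f z) (η z)) y :=
  (SA.smul (fsm_re s) p.sm).add (SA.smul (fsm_im s) (T.pl_J hy p).sm)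

theorem Q_cm (z : ℂ) : Q y (cm (J y) z (η y)) = cm (J y) z (η y) := by
  simp only [cm, map_add, map_smul, p.mem, (T.pl_J hy p).mem]

theorem cov_cm (s : ∀ k, SA I (θ k) y) (Γ : ι → ι → ι → M → ℝ) (i k : ι) :
    cov I F.e Γ A (fun k z => cm (J z) (θ k z) (η z)) i k y = cm (J y) (cθ F Γ a θ i k y) (η y) := by
  have q := T.pl_J hy p
  have j := T.JJ y hy _ p.mem
  have e : nab I F.e A i (fun z => cm (J z) (θ k z) (η z)) y =
      cm (J y) (dv I (F.e i) (θ k) y + (a i y : ℝ) * (Complex.I * θ k y)) (η y) := by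
    unfold cm
    rw [nab_add i (SA.smul (fsm_re (s k)) p.sm) (SA.smul (fsm_im (s k)) q.sm),
      nab_smul i (fsm_re (s k)) p.sm, nab_smul i (fsm_im (s k)) q.sm, dv_re (s k), dv_im (s k),
      p.par, q.par]
    simp only [j, Complex.mul_re, Complex.mul_im, Complex.ofReal_re, Complex.ofReal_im,
      Complex.I_re, Complex.I_im, Complex.add_re, Complex.add_im]
    module
  simp only [cov, e]
  simp only [cm_eq, cθ, map_add, map_sub, map_sum, map_smul]
  abel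

end

variable {B : Base M ι lam} {G : Geo I M ι lam} {m : Md M ι lam} {W : m.Cn} {Ω : Set M}
  {G' : Fr I M ι} {ψ : M → ℝ} {Q J : M → CL m.A m.A} {O : β → Set M} {α : β → ι → M → ℝ}
  {g : β → β → M → ℂ} {r : ℝ} {η : β → M → m.A}

variable (B G Ω G' ψ W) in
/-- weighted square integrable solutions -/
def Sl (u : M → Cf ι (Fin m.N)) : Prop := Sm I u ∧
  Integrable (fun x => Real.exp (2 * ψ x) * ‖u x‖ ^ 2) G.F.μ ∧
  (∀ x, (ind (bdOf B m) Ω ∅).pC x (u x) = u x) ∧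
  ((ind (bdOf B m) Ω ∅).full G' (base W 0)).app G' u = 0

variable (hB : B.OK I) (hG : G.OK B) (H : m.OK I B) (C : m.IsConn B G W) (cl : IsClopen Ω)
  (w : Wt G.F G' ψ) (T : Tc G.F Ω (m.adW W) Q J O α g) (hQ : ∀ y ∈ Ω, ∀ v, Q y v = v → v ∈ m.gS y)
  (θ : β → ι → M → ℂ) (sθ : ∀ b a, ∀ y ∈ O b, SA I (θ b a) y)
  (pθ : ∀ b a, ∀ y ∈ O b, ∑ k, G.F.P a k y • θ b k y = θ b a y)
  (tθ : ∀ b b' a, ∀ y ∈ O b ∩ O b', θ b' a y * g b b' y = θ b a y)
  (row : ∀ b, ∀ y ∈ O b, ∑ a, cθ G.F G.F.Gam (α b) (θ b) a a y = 0)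
  (rad : ∀ b, ∀ y ∈ O b, ∑ k, G.F.D k ψ y • θ b k y = 0)
  (crv : ∀ b, ∀ y ∈ O b, ∀ s, ∑ t, B.sd y s t •
    (cθ G.F G.F.Gam (α b) (θ b) t.1 t.2 y - cθ G.F G.F.Gam (α b) (θ b) t.2 t.1 y) = 0)
  (f : M → ℝ) (hf : IntegrableOn (fun y => Real.exp (2 * ψ y) * f y) Ω G.F.μ)
  (le : ∀ b, ∀ y ∈ O b, ∑ a, ‖θ b a y‖ ^ 2 ≤ f y)
include hB hG H C cl w T hQ sθ pθ tθ row rad crv hf le

theorem one (p : Et G.F (m.adW W) Q J O α g r η) : ∃ u, Sl B G W Ω G' ψ u ∧
    ∀ b, ∀ y ∈ O b, ∀ k, fa (u y) k = cm (J y) (θ b k y) (η b y) := by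
  classical
  have jj := fun b y hy => T.JJ y (T.sub hy) _ (p.pl b y hy).mem
  obtain ⟨u, e1, e0⟩ : ∃ u : M → Cf ι (Fin m.N), (∀ b, ∀ y ∈ O b,
      u y = i1 _ _ (∑ k, ij _ k (cm (J y) (θ b k y) (η b y)))) ∧ ∀ y ∉ Ω, u y = 0 :=
    ⟨fun y => if h : ∃ b, y ∈ O b then i1 _ _ (∑ k, ij _ k (cm (J y) (θ h.choose k y) (η h.choose y)))
      else 0, fun b y hy => by
        have k := (⟨b, hy⟩ : ∃ b, y ∈ O b).choose_spec
        simp only [dif_pos (⟨b, hy⟩ : ∃ b, y ∈ O b), p.tr b _ y ⟨hy, k⟩, cm_cm (jj b y hy),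
          tθ b _ _ y ⟨hy, k⟩], fun y hy => dif_neg fun k => hy ((T.cov y).2 k)⟩
  have v1 := fun b y (hy : y ∈ O b) => ((T.op b).eventually_mem hy).mono (e1 b)
  have v0 : ∀ y ∉ Ω, u =ᶠ[𝓝 y] fun _ => 0 := fun y hy =>
    (cl.1.isOpen_compl.eventually_mem hy).mono e0
  have f1 : ∀ b, ∀ y ∈ O b, ∀ k, fa (u y) k = cm (J y) (θ b k y) (η b y) := fun b y hy k => by
    rw [e1 b y hy, f2_i1, sum_ij]
  have f0 : ∀ y, fp (u y) = 0 := fun y => by
    by_cases hy : y ∈ Ω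
    · obtain ⟨b, hb⟩ := (T.cov y).1 hy
      rw [e1 b y hb, s2_i1]
    · rw [e0 y hy, map_zero]
  have pg : ∀ b, ∀ y ∈ O b, ∀ z, m.pg y (cL (J y) (η b y) z) = cL (J y) (η b y) z := fun b y hy z =>
    Submodule.starProjection_eq_self_iff.2 (hQ y (T.sub hy) _ (Q_cm T (T.sub hy) (p.pl b y hy) z))
  have su : Sm I u := fun y => by
    by_cases hy : y ∈ Ω
    · obtain ⟨b, hb⟩ := (T.cov y).1 hy
      exact (SA.clm _ (SA.sum _ fun k _ => SA.clm _
        (sa_cm T hy (p.pl b y hb) (sθ b k y hb)))).congr_of_eventuallyEq (v1 b y hb)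
    · exact contMDiffAt_const.congr_of_eventuallyEq (v0 y hy)
  have pu : ∀ y, (ind (bdOf B m) Ω ∅).pC y (u y) = u y := fun y => by
    by_cases hy : y ∈ Ω
    · obtain ⟨b, hb⟩ := (T.cov y).1 hy
      refine ext2 (fm_ext fun a => ?_) (by rw [s2_ps, show s2 _ _ (u y) = 0 from f0 y, map_zero])
      have := pθ b a y hb
      rw [hG.P] at this
      simp only [f2_ps, ind, Wz78.idx_apply, indicator_of_mem hy, bdOf, f1 b y hb, cm_eq, pg b y hb,
        Bd.Px, ← map_smul, ← map_sum, this]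
    · rw [e0 y hy, map_zero]
  have C0 := (cp_of hB hG H C).ind cl isClopen_empty
  have cp : Cp (ind (bdOf B m) Ω ∅) G' G.F.Gam W :=
    ⟨C0.ok, w.P.trans C0.P, by rw [w.e, w.P, w.c]; exact C0.lc, C0.so, C0.sρ, C0.sg, C0.ssp, C0.ssm,
      w.P ▸ C0.con, C0.sk, w.e ▸ C0.g, w.e ▸ C0.sp, w.e ▸ C0.sm, w.e ▸ C0.ρ⟩
  refine ⟨u, ⟨su, ?_, pu, funext fun y => ?_⟩, f1⟩
  · refine ((integrable_indicator_iff cl.2.measurableSet).2 (hf.mul_const (r ^ 2))).mono'
      ((Real.continuous_exp.comp (continuous_const.mul w.sm.continuous)).mul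
        (su.continuous.norm.pow 2)).aestronglyMeasurable (.of_forall fun y => ?_)
    rw [Real.norm_of_nonneg (by positivity)]
    by_cases hy : y ∈ Ω
    · obtain ⟨b, hb⟩ := (T.cov y).1 hy
      rw [indicator_of_mem hy, mul_assoc, WithLp.prod_norm_sq_eq_of_L2,
        show (u y).snd = 0 from f0 y, norm_zero, PiLp.norm_sq_eq_of_L2]
      refine mul_le_mul_of_nonneg_left ?_ (Real.exp_pos _).le
      have : ∀ k, ‖(u y).fst k‖ ^ 2 = ‖θ b k y‖ ^ 2 * r ^ 2 := fun k => by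
        rw [← mul_pow, ← p.nm b y hb, ← norm_cm (T.Jk y hy) (jj b y hb), ← f1 b y hb]; rfl
      simp only [this, ← Finset.sum_mul]
      nlinarith [le b y hb, sq_nonneg r]
    · simp [hy, e0 y hy]
  by_cases hy : y ∈ Ω
  swap
  · simp only [Op.app, Pre.op, Pre.D_def, dv_congr (v0 y hy), dv_const, e0 y hy, Pi.zero_apply,
      map_zero, Finset.sum_const_zero, add_zero]
  obtain ⟨b, hb⟩ := (T.cov y).1 hy
  have cv : ∀ a k, cov I G'.e G.F.Gam (adw W) (fun k z => fa (u z) k) a k y =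
      cL (J y) (η b y) (cθ G.F G.F.Gam (α b) (θ b) a k y) := fun a k => by
    rw [← cm_eq, ← cov_cm T hy (p.pl b y hb) (sθ b · y hb), w.e]
    simp only [cov, f1 b y hb]
    rw [nab_congr a (((T.op b).eventually_mem hb).mono fun z hz => f1 b z hz k)]
    rfl
  have df : ∀ k, dft G' G.F.Gam k y = 2 * G.F.D k ψ y := fun k => by
    rw [dft, w.dv, ← (riem_of_vol hG.vol).hg (lc_gam G.F), add_sub_cancel_left]
  refine ext2 ?_ (ext2 ?_ ?_)
  · simp only [cp.full_row (su y) pu, cv, df, f1 b y hb, cm_eq, mul_smul, ← map_smul, ← map_sum,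
      row b y hb, ← Finset.smul_sum, rad b y hb]
    simp [rk1]
  · simp [cp.full_dir (su y) pu, f0, dir, nab]
  · rw [cp.full_crv (su y) pu]
    refine fm_ext fun s => ?_
    have z : ∀ v : m.V, rk1 0 v = 0 := fun v => by simp [rk1]
    simp only [cv, f0, Pi.zero_apply, map_zero, z, add_zero, sub_zero]
    simp only [ind, Wz78.idx_apply, indicator_of_mem hy, bdOf, ← map_sub, pg b y hb]
    simp only [← map_smul, ← map_sum]
    exact (congrArg _ (crv b y hb s)).trans (map_zero _)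

/-- **TRANSFER** -/
theorem kw (p : Et G.F (m.adW W) Q J O α g r η) (r0 : r ≠ 0)
    (ne : ∃ b, ∃ y ∈ O b, ∃ a, θ b a y ≠ 0) :
    ∃ u : Fin 2 → M → Cf ι (Fin m.N), LinearIndependent ℝ u ∧ ∀ i, Sl B G W Ω G' ψ (u i) := by
  obtain ⟨u, h1, h2⟩ := one hB hG H C cl w T hQ θ sθ pθ tθ row rad crv f hf le p
  obtain ⟨v, h3, h4⟩ := one hB hG H C cl w T hQ θ sθ pθ tθ row rad crv f hf le (T.et_J p)
  obtain ⟨b, y, hy, a, ha⟩ := ne
  refine ⟨![u, v], LinearIndependent.pair_iff.2 fun s t e => ?_, Fin.forall_fin_two.2 ⟨h1, h3⟩⟩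
  have j := T.JJ y (T.sub hy) _ (p.pl b y hy).mem
  have k : cm (J y) ((s + t * Complex.I) * θ b a y) (η b y) = 0 := by
    have := congrArg (fun z => fa (z y) a) e
    simp only [Pi.add_apply, Pi.smul_apply, map_add, map_smul, PiLp.add_apply, PiLp.smul_apply,
      h2 b y hy, h4 b y hy, Pi.zero_apply, map_zero, PiLp.zero_apply] at this
    rw [← this]
    simp only [cm, j, Complex.mul_re, Complex.mul_im, Complex.ofReal_re, Complex.ofReal_im,
      Complex.I_re, Complex.I_im, Complex.add_re, Complex.add_im]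
    module
  have := congrArg norm k
  rw [norm_cm (T.Jk y (T.sub hy)) j, p.nm b y hy, norm_zero] at this
  simpa [r0, ha, Complex.ext_iff] using this

omit pθ row crv in
/-- the same with the equations in the form of `Kb50.Fz` -/
theorem kwF (pr : ∀ b, ∀ y ∈ O b, ∀ a, ∑ k, B.P a k y • θ b k y = θ b a y)
    (c : ∀ b, ∀ x ∈ O b, ∀ t, ∑ s, B.sd x t s • (d1 I G.F.e G.F.c (θ b) s.1 s.2 x +
      Complex.I * (α b s.1 x * θ b s.2 x - α b s.2 x * θ b s.1 x)) = 0)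
    (rw : ∀ b, ∀ x ∈ O b, ∑ a, (G.F.D a (θ b a) x + G.F.dv a x • θ b a x +
      Complex.I * (α b a x * θ b a x)) = 0)
    (p : Et G.F (m.adW W) Q J O α g r η) (r0 : r ≠ 0) (ne : ∃ b, ∃ y ∈ O b, ∃ a, θ b a y ≠ 0) :
    ∃ u : Fin 2 → M → Cf ι (Fin m.N), LinearIndependent ℝ u ∧ ∀ i, Sl B G W Ω G' ψ (u i) := by
  rw [← hG.P] at pr
  refine kw hB hG H C cl w T hQ θ sθ (fun b a y hy => pr b y hy a) tθ (fun b y hy => ?_) rad
    (fun b y hy s => ?_) f hf le p r0 ne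
  · rw [← rw b y hy]
    simp only [cθ, Finset.sum_add_distrib, Finset.sum_sub_distrib, (lc_gam G.F).div_sum (frm G.F)
      (dv_gam hG.vol y) (pr b y hy), sub_neg_eq_add, Pre.D_def, mul_left_comm Complex.I]
  · rw [← c b y hy s]
    refine Finset.sum_congr rfl fun t _ => congrArg _ ?_
    simp only [cθ, d1, (lc_gam G.F).cD t.1 t.2 (pr b y hy)]
    ring

end Crest.Agent.X212.Ker75
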